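import Mathlib.Algebra.Order.Archimedean.Real.Hom
import Mathlib.Algebra.Order.Quantale
import Mathlib.Algebra.Order.Ring.Star
import Mathlib.Algebra.Order.Star.Real
import Mathlib.Analysis.Normed.Module.DoubleDual
import Mathlib.LinearAlgebra.Complex.FiniteDimensional
import Mathlib.Order.CompletePartialOrder
import Mathlib.Tactic
import Mathlib.Topology.Algebra.ProperAction.Basic
import Mathlib.Topology.GDelta.MetrizableSpace

/-! The part of Mathlib that the development of this folder uses. -/
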